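import Vale.Agent.P183A.Top
import Vale.Agent.P183A.Rep
import Vale.Agent.P183B.Main
import Vale.Agent.P183C.Main

/-!
The finite lattice representation problem is equivalent to its case of intervals in finite almost
simple groups.
-/

namespace Vale.Agent.Results.P183.AlmostSimple

open Vale.Agent.P183 Vale.Agent.P183A

theorem key (Λ : Type) [Lattice Λ] [Finite Λ] [Nonempty Λ] :
    ∃ (L : Type) (_ : Lattice L) (_ : Finite L) (_ : Nonempty L), Representable L → ASI Λ := by
  obtain ⟨K, _, _, _, hK⟩ := P183B.exists_good Λ
  obtain ⟨D⟩ := hK.1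
  obtain ⟨L, _, _, _, hL⟩ := P183C.pp K D.nomod
  exact ⟨L, _, ‹_›, ‹_›, fun h => asi_of_good hK (hL h)⟩

theorem result :
    -- (1) for every finite lattice `Λ` there is a finite lattice `L` that is representable only
    -- if `Λ` is an interval `[H, G]` of a finite almost simple group `G`
    (∀ (Λ : Type) [Lattice Λ] [Finite Λ] [Nonempty Λ],
      ∃ (L : Type) (_ : Lattice L) (_ : Finite L) (_ : Nonempty L), Representable L → ASI Λ) ∧
    -- (2) all finite lattices are representable iff all are such intervals
    ((∀ (L : Type) [Lattice L] [Finite L] [Nonempty L], Representable L) ↔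
      ∀ (L : Type) [Lattice L] [Finite L] [Nonempty L], ASI L) :=
  ⟨key, fun h Λ _ _ _ =>
    let ⟨L, _, _, _, hL⟩ := key Λ
    hL (h L), fun h L _ _ _ => (h L).gi.rep⟩

end Vale.Agent.Results.P183.AlmostSimple
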